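import Mathlib
import Vale.Agent.P036.Energy

namespace Vale.Agent.Results.P036.HighEnergyTriangle

open scoped Pointwise

/-- For `P` in the closed unit square with at least three points, the minimum triangle area is at
most `600 L^3 n^(-3/2)` when `|P - P| ≤ L n` and at most `2^90 K^32 n^(-3/2)` when the additive
energy is at least `n^3 / K`; hence at most `n^(-7/6 - 1/300)` for all large `n` when the energy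
is at least `n^(3 - 1/100)`. -/
theorem result :
    (∀ P : Finset (ℝ × ℝ),
      (∀ p ∈ P, (0 ≤ p.1 ∧ p.1 ≤ 1) ∧ (0 ≤ p.2 ∧ p.2 ≤ 1)) → 3 ≤ P.card →
      ∀ L : ℝ, ((P - P).card : ℝ) ≤ L * P.card →
      ∃ p ∈ P, ∃ q ∈ P, ∃ r ∈ P, p ≠ q ∧ p ≠ r ∧ q ≠ r ∧
        |(q.1 - p.1) * (r.2 - p.2) - (q.2 - p.2) * (r.1 - p.1)| / 2 ≤
          600 * L ^ 3 / (P.card * Real.sqrt P.card)) ∧
    (∀ P : Finset (ℝ × ℝ),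
      (∀ p ∈ P, (0 ≤ p.1 ∧ p.1 ≤ 1) ∧ (0 ≤ p.2 ∧ p.2 ≤ 1)) → 3 ≤ P.card →
      ∀ K : ℕ, P.card ^ 3 ≤ K * Finset.addEnergy P P →
      ∃ p ∈ P, ∃ q ∈ P, ∃ r ∈ P, p ≠ q ∧ p ≠ r ∧ q ≠ r ∧
        |(q.1 - p.1) * (r.2 - p.2) - (q.2 - p.2) * (r.1 - p.1)| / 2 ≤
          2 ^ 90 * (K : ℝ) ^ 32 / (P.card * Real.sqrt P.card)) ∧
    (∃ n0 : ℕ, ∀ P : Finset (ℝ × ℝ),
      (∀ p ∈ P, (0 ≤ p.1 ∧ p.1 ≤ 1) ∧ (0 ≤ p.2 ∧ p.2 ≤ 1)) → n0 ≤ P.card →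
      (P.card : ℝ) ^ (3 - 1 / 100 : ℝ) ≤ (Finset.addEnergy P P : ℝ) →
      ∃ p ∈ P, ∃ q ∈ P, ∃ r ∈ P, p ≠ q ∧ p ≠ r ∧ q ≠ r ∧
        |(q.1 - p.1) * (r.2 - p.2) - (q.2 - p.2) * (r.1 - p.1)| / 2 ≤
          (P.card : ℝ) ^ (-(7 / 6 + 1 / 300) : ℝ)) :=
  ⟨fun _ hP h3 _ hL => Vale.Agent.P036.triangle_of_diffs hP h3 hL,
    fun _ hP h3 _ hE => Vale.Agent.P036.triangle_of_energy hP h3 hE,
    Vale.Agent.P036.triangle_asymptotic⟩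

end Vale.Agent.Results.P036.HighEnergyTriangle
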